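import Vale.Agent.P280.H754.Face

/-!
Lowest components in terms of tangent weights; weights at the points of the components of the `Lk`.
-/

open DirectSum Vale.Agent.P280.T Vale.Agent.P280.H127

namespace Vale.Agent.P280.N

section
variable {r : ℕ} {R : Type} [CommRing R] [Algebra ℂ R]
variable {𝒜 : ℕ × (Fin r → ℤ) → Submodule ℂ R}

theorem FP.Pi.wt {y : FP 𝒜} {χ : Fin r → ℤ} (h : y.Pi χ) : Wt 𝒜 χ := ⟨y, h⟩

/-- the tangent weights at a point of the lowest component are nonnegative -/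
theorem low_pos {l : (Fin r → ℤ) →+ ℤ} {y : FP 𝒜} (hy : Low l y) : Pos l y := by
  rintro χ ⟨v, -, hw, hne⟩
  obtain ⟨d, m, h, hh, h1⟩ := hne 0
  simp only [zero_mul] at h1
  have h2 := hw d m h hh h1
  have h3 : h ≠ 0 := by
    rintro rfl
    exact h1 (map_zero v)
  have h4 := hy d m h hh h3
  rw [h2, map_add, map_nsmul] at h4
  linarith

/-- a fixed point without negative tangent weights is in the lowest component -/
theorem low_of_pos [GradedAlgebra 𝒜] (hX : IsTorusManifold 𝒜) {l : (Fin r → ℤ) →+ ℤ} {y : FP 𝒜}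
    (hy : Pos l y) : Low l y := by
  have := hX.domain
  have := noeth hX
  have hF := fix_of_isFixed y.fix
  obtain ⟨n, u, wt, G, hn⟩ := exists_params_T hX y.nv hF
  have hwt : ∀ i, 0 ≤ l (wt i) := by
    intro i
    by_cases h0 : wt i = 0
    · rw [h0, map_zero]
    · exact hy _ (tangentWeight_of_wt hX y.fix G hn h0)
  intro d m h hh hne
  by_contra hlt
  have h1 : coarse 𝒜 (rl (AddMonoidHom.id (Fin r → ℤ)) y.ν) (m - d • y.ν) = ⊥ := by
    refine source hF G (C := {w | l w < 0}) (by simp) ?_ ?_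
    · intro w hw i
      have h2 := hwt i
      simp only [Set.mem_ofPred_eq, map_sub] at hw ⊢
      linarith
    · simp only [Set.mem_ofPred_eq, map_sub, map_nsmul]
      linarith
  have h2 := mem_coarse (f := rl (AddMonoidHom.id (Fin r → ℤ)) y.ν) hh rfl
  rw [rl_apply, AddMonoidHom.id_apply, h1] at h2
  exact hne ((Submodule.mem_bot ℂ).1 h2)

theorem low_iff_pos [GradedAlgebra 𝒜] (hX : IsTorusManifold 𝒜) {l : (Fin r → ℤ) →+ ℤ}
    {y : FP 𝒜} : Low l y ↔ Pos l y := ⟨low_pos, low_of_pos hX⟩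

end

section
variable {r : ℕ} {R : Type} [CommRing R] [IsDomain R] [Algebra ℂ R]
variable {𝒜 : ℕ × (Fin r → ℤ) → Submodule ℂ R}
variable {N : ℤ} {lam : Fin r → ℤ} {m : ℕ} {e : Fin m → Fin r → ℤ} {L0 : (Fin r → ℤ) →+ ℤ}
  {β : Fin m → Bool → ((Fin r → ℤ) →+ ℤ)} {E F : Fin m → Bool → VF R}

namespace Face

variable (h : Face 𝒜 N lam m e L0 β E F)
include h

theorem pos_mono {y : FP 𝒜} {k k' : ℕ} (hk : k ≤ k') (hy : Pos (Lk N L0 β k') y) :
    Pos (Lk N L0 β k) y := fun χ hχ => h.Lk_nonneg_mono ⟨y, hχ⟩ hk (hy χ hχ)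

theorem low_mono [GradedAlgebra 𝒜] (hX : IsTorusManifold 𝒜) {y : FP 𝒜} {k k' : ℕ} (hk : k ≤ k')
    (hy : Low (Lk N L0 β k') y) : Low (Lk N L0 β k) y :=
  low_of_pos hX (h.pos_mono hk (low_pos hy))

/-- in `S`: `L0` is nonnegative -/
theorem pos_L0 {y : FP 𝒜} {k : ℕ} (hy : Pos (Lk N L0 β k) y) : Pos L0 y := by
  intro χ hχ
  by_contra h1
  exact absurd (h.Lk_neg_of_L0 ⟨y, hχ⟩ (not_le.1 h1) k) (not_lt.2 (hy χ hχ))

theorem low_L0 [GradedAlgebra 𝒜] (hX : IsTorusManifold 𝒜) {y : FP 𝒜} {k : ℕ}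
    (hy : Low (Lk N L0 β k) y) : Low L0 y :=
  low_of_pos hX (h.pos_L0 (low_pos hy))

/-- below the face -/
theorem Lk_lt_of_L0 {ω : Fin r → ℤ} (hω : Wt 𝒜 ω) (h0 : L0 ω < L0 lam) (k : ℕ) :
    Lk N L0 β k ω < 3 ^ m * N * L0 lam := by
  have h1 := (abs_lt.1 (h.two_mul_ts_lt hω k)).2
  have hN := h.N0
  have h3 : (0 : ℤ) < 3 ^ m * N := by positivity
  rw [Lk_apply]
  nlinarith

theorem ts_const_nonneg (k : ℕ) : 0 ≤ ts (fun _ : Fin m => N) k := by
  have hN := h.N0
  rw [ts]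
  refine Finset.sum_nonneg fun i _ => ?_
  split_ifs
  · positivity
  · exact le_rfl

theorem le_Lk_lam (k : ℕ) : 3 ^ m * N * L0 lam ≤ Lk N L0 β k lam := by
  have := h.ts_const_nonneg k
  rw [h.Lk_lam]
  linarith

theorem le_Lk_vx (k : ℕ) (i : Fin m) (s : Bool) :
    3 ^ m * N * L0 lam ≤ Lk N L0 β k (vx lam e i s) := by
  have hN := h.N0
  rw [Lk_apply, h.L0_vx]
  have : 0 ≤ ts (fun j => β j true (vx lam e i s)) k := by
    rw [ts]
    refine Finset.sum_nonneg fun j _ => ?_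
    split_ifs
    · refine mul_nonneg (by positivity) ?_
      rw [h.b_vx]
      by_cases hij : i = j
      · rw [if_pos hij]
        cases s
        · simp
        · simp only [sg_true, one_mul]
          linarith
      · rw [if_neg hij, mul_zero, add_zero]
        exact hN.le
    · exact le_rfl
  linarith

/-- a weight with the value of `Lk` of an element of the face is in the face -/
theorem face_of_le {ω : Fin r → ℤ} (hω : Wt 𝒜 ω) {k : ℕ} (h1 : 3 ^ m * N * L0 lam ≤ Lk N L0 β k ω) :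
    ω = lam ∨ ∃ j s, ω = vx lam e j s := by
  apply h.top ω hω
  by_contra h2
  exact absurd (h.Lk_lt_of_L0 hω (lt_of_le_of_ne (h.max ω hω) h2) k) (not_lt.2 h1)

theorem pow_inj' {i j : Fin m} (hij : (3 : ℤ) ^ (m - 1 - (i : ℕ)) = 3 ^ (m - 1 - (j : ℕ))) :
    i = j := by
  have h1 := (pow_right_injective₀ (a := (3 : ℤ)) (by norm_num) (by norm_num)) hij
  apply Fin.ext
  have h2 := i.2
  have h3 := j.2
  omega

/-- **uniqueness of the value of `Lk` at a vertex with index before `k`** -/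
theorem eq_vx_of_Lk_eq {ω : Fin r → ℤ} (hω : Wt 𝒜 ω) {k : ℕ} {i : Fin m} (hi : (i : ℕ) < k)
    {s : Bool} (h1 : Lk N L0 β k ω = Lk N L0 β k (vx lam e i s)) : ω = vx lam e i s := by
  have hN := h.N0
  rcases h.face_of_le hω (h1 ▸ h.le_Lk_vx k i s) with rfl | ⟨j, s', rfl⟩
  · rw [h.Lk_vx, if_pos hi] at h1
    have h2 : (0 : ℤ) < 3 ^ (m - 1 - (i : ℕ)) * N := by positivity
    cases s <;> simp at h1 <;> nlinarith
  · rw [h.Lk_vx, h.Lk_vx, if_pos hi] at h1
    have h2 : (0 : ℤ) < 3 ^ (m - 1 - (i : ℕ)) * N := by positivity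
    have h4 : (0 : ℤ) < 3 ^ (m - 1 - (j : ℕ)) * N := by positivity
    by_cases hj : (j : ℕ) < k
    · rw [if_pos hj] at h1
      have h3 : s' = s := by
        cases s <;> cases s' <;> simp at h1 ⊢ <;> nlinarith
      subst h3
      have h5 : (3 : ℤ) ^ (m - 1 - (j : ℕ)) = 3 ^ (m - 1 - (i : ℕ)) := by
        have h6 := add_left_cancel h1
        have h7 := mul_left_cancel₀ (sg_ne_zero s') h6
        exact mul_right_cancel₀ (ne_of_gt hN) h7
      rw [h.pow_inj' h5]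
    · rw [if_neg hj] at h1
      cases s <;> simp at h1 <;> nlinarith

/-- the class of `lam` -/
theorem class_lam {ω : Fin r → ℤ} (hω : Wt 𝒜 ω) {k : ℕ} :
    Lk N L0 β k ω = Lk N L0 β k lam ↔ ω = lam ∨ ∃ (j : Fin m) (s : Bool), k ≤ (j : ℕ) ∧ ω = vx lam e j s := by
  have hN := h.N0
  constructor
  · intro h1
    rcases h.face_of_le hω (h1 ▸ h.le_Lk_lam k) with h2 | ⟨j, s, rfl⟩
    · exact Or.inl h2
    · refine Or.inr ⟨j, s, ?_, rfl⟩
      by_contra hj
      rw [h.Lk_vx, if_pos (not_le.1 hj)] at h1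
      have h2 : (0 : ℤ) < 3 ^ (m - 1 - (j : ℕ)) * N := by positivity
      cases s <;> simp at h1 <;> nlinarith
  · rintro (rfl | ⟨j, s, hj, rfl⟩)
    · rfl
    · rw [h.Lk_vx, if_neg (by omega), mul_zero, add_zero]

theorem Lk_lam_pos (k : ℕ) : 0 < Lk N L0 β k lam := by
  have hN := h.N0
  have h1 := h.pos
  have h2 : 0 < 3 ^ m * N * L0 lam := by positivity
  exact h2.trans_le (h.le_Lk_lam k)

theorem Lk_vx_pos (k : ℕ) (i : Fin m) (s : Bool) : 0 < Lk N L0 β k (vx lam e i s) := by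
  have hN := h.N0
  have h1 := h.pos
  have h2 : 0 < 3 ^ m * N * L0 lam := by positivity
  exact h2.trans_le (h.le_Lk_vx k i s)

/-- opposite vertices are no tangent weights in `S` -/
theorem not_neg_vx {y : FP 𝒜} (hy : Pos L0 y) (j : Fin m) (s : Bool) :
    ¬ y.Pi (-vx lam e j s) := by
  intro h1
  have h2 := hy _ h1
  rw [map_neg, h.L0_vx] at h2
  have := h.pos
  linarith

theorem not_neg_lam {y : FP 𝒜} (hy : Pos L0 y) : ¬ y.Pi (-lam) := by
  intro h1
  have h2 := hy _ h1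
  rw [map_neg] at h2
  have := h.pos
  linarith

end Face

end

end Vale.Agent.P280.N
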