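import Vale.Agent.P280.N.Defs

/-!
Combinatorics of the face: values of the coroots and of the functionals `Lk`, dominance, signs.
-/

open DirectSum Vale.Agent.P280.T Vale.Agent.P280.H127

namespace Vale.Agent.P280.N

/-! ### Sums with weights `3 ^ (m - 1 - i)` -/

/-- `∑_{i < k} 3 ^ (m - 1 - i) b i`. -/
def ts {m : ℕ} (b : Fin m → ℤ) (k : ℕ) : ℤ :=
  ∑ i : Fin m, if (i : ℕ) < k then (3 : ℤ) ^ (m - 1 - i) * b i else 0

/-- the tail sums of the powers of three -/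
theorem three_tail {m : ℕ} (k : ℕ) (hk : k ≤ m) :
    2 * ∑ i : Fin m, (if k ≤ (i : ℕ) then (3 : ℤ) ^ (m - 1 - i) else 0) = 3 ^ (m - k) - 1 := by
  induction m generalizing k with
  | zero => simp
  | succ m ih =>
    rw [Fin.sum_univ_castSucc]
    rcases Nat.lt_or_ge m k with h | h
    · have hkm : k = m + 1 := by omega
      subst hkm
      have h0 : ∀ i : Fin m, (if m + 1 ≤ ((Fin.castSucc i : Fin (m + 1)) : ℕ) then
          (3 : ℤ) ^ (m + 1 - 1 - ((Fin.castSucc i : Fin (m + 1)) : ℕ)) else 0) = 0 := by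
        intro i
        rw [if_neg]
        simp only [Fin.val_castSucc]
        omega
      rw [Finset.sum_eq_zero fun i _ => h0 i, if_neg (by simp)]
      simp
    · have h1 := ih k h
      have h2 : ∀ i : Fin m, (if k ≤ ((Fin.castSucc i : Fin (m + 1)) : ℕ) then
          (3 : ℤ) ^ (m + 1 - 1 - ((Fin.castSucc i : Fin (m + 1)) : ℕ)) else 0) =
          3 * (if k ≤ (i : ℕ) then (3 : ℤ) ^ (m - 1 - i) else 0) := by
        intro i
        simp only [Fin.val_castSucc]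
        split_ifs with h3
        · have h4 : m + 1 - 1 - (i : ℕ) = (m - 1 - i) + 1 := by omega
          rw [h4, pow_succ]
          ring
        · ring
      rw [Finset.sum_congr rfl fun i _ => h2 i, ← Finset.mul_sum, if_pos (by simpa using h)]
      have h5 : m + 1 - 1 - ((Fin.last m : Fin (m + 1)) : ℕ) = 0 := by simp
      have h6 : m + 1 - k = (m - k) + 1 := by omega
      rw [h5, h6, pow_succ, pow_zero]
      linarith

/-- bound of the tail -/
theorem ts_tail {m : ℕ} {b : Fin m → ℤ} {N : ℤ} (hb : ∀ i, |b i| ≤ N) (k k' : ℕ)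
    (hk : k ≤ m) (hkk : k ≤ k') :
    2 * |ts b k' - ts b k| ≤ (3 ^ (m - k) - 1) * N := by
  have h1 : ts b k' - ts b k =
      ∑ i : Fin m, if k ≤ (i : ℕ) ∧ (i : ℕ) < k' then (3 : ℤ) ^ (m - 1 - i) * b i else 0 := by
    rw [ts, ts, ← Finset.sum_sub_distrib]
    refine Finset.sum_congr rfl fun i _ => ?_
    by_cases h2 : (i : ℕ) < k
    · rw [if_pos (by omega), if_pos h2, if_neg (by omega), sub_self]
    · by_cases h3 : (i : ℕ) < k'
      · rw [if_pos h3, if_neg h2, if_pos (by omega), sub_zero]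
      · rw [if_neg h3, if_neg h2, if_neg (by omega), sub_zero]
  have h2 : |ts b k' - ts b k| ≤
      ∑ i : Fin m, (if k ≤ (i : ℕ) then (3 : ℤ) ^ (m - 1 - i) else 0) * N := by
    rw [h1]
    refine (Finset.abs_sum_le_sum_abs _ _).trans (Finset.sum_le_sum fun i _ => ?_)
    have hN : 0 ≤ N := (abs_nonneg _).trans (hb i)
    by_cases h3 : k ≤ (i : ℕ) ∧ (i : ℕ) < k'
    · rw [if_pos h3, if_pos h3.1, abs_mul, abs_of_pos (by positivity)]
      exact mul_le_mul_of_nonneg_left (hb i) (by positivity)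
    · rw [if_neg h3, abs_zero]
      split_ifs
      · positivity
      · rw [zero_mul]
  rw [← Finset.sum_mul] at h2
  have h3 := three_tail (m := m) k hk
  calc 2 * |ts b k' - ts b k| ≤
      2 * ((∑ i : Fin m, (if k ≤ (i : ℕ) then (3 : ℤ) ^ (m - 1 - i) else 0)) * N) := by linarith
    _ = (3 ^ (m - k) - 1) * N := by rw [← mul_assoc, h3]

theorem ts_zero {m : ℕ} (b : Fin m → ℤ) : ts b 0 = 0 := by
  rw [ts]
  exact Finset.sum_eq_zero fun i _ => if_neg (by omega)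

theorem ts_succ {m : ℕ} (b : Fin m → ℤ) (k : Fin m) :
    ts b (k + 1) = ts b k + 3 ^ (m - 1 - k) * b k := by
  have h1 : ts b (k + 1) - ts b k = 3 ^ (m - 1 - k) * b k := by
    rw [ts, ts, ← Finset.sum_sub_distrib, Finset.sum_eq_single k]
    · rw [if_pos (by omega), if_neg (by omega), sub_zero]
    · intro i _ hi
      have hi' : (i : ℕ) ≠ k := fun h => hi (Fin.ext h)
      by_cases h2 : (i : ℕ) < k
      · rw [if_pos (by omega), if_pos h2, sub_self]
      · rw [if_neg (by omega), if_neg h2, sub_self]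
    · intro h
      exact absurd (Finset.mem_univ _) h
  linarith

theorem ts_eq_zero {m : ℕ} {b : Fin m → ℤ} {k : ℕ} (h : ∀ i : Fin m, (i : ℕ) < k → b i = 0) :
    ts b k = 0 := by
  rw [ts]
  refine Finset.sum_eq_zero fun i _ => ?_
  split_ifs with h1
  · rw [h i h1, mul_zero]
  · rfl

/-- the sign is the sign of the first nonzero entry -/
theorem ts_pos {m : ℕ} {b : Fin m → ℤ} {N : ℤ} (hN : 0 < N) (hb : ∀ i, |b i| ≤ N) {k0 : Fin m}
    (h0 : ∀ i : Fin m, (i : ℕ) < k0 → b i = 0) (h1 : b k0 = N) {k : ℕ} (hk : (k0 : ℕ) < k) :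
    0 < ts b k := by
  have h2 := ts_tail hb (k0 + 1) k (by omega) (by omega)
  rw [ts_succ, ts_eq_zero h0, h1] at h2
  have h3 : m - ((k0 : ℕ) + 1) = m - 1 - k0 := by omega
  rw [h3] at h2
  have h4 : (0 : ℤ) < 3 ^ (m - 1 - (k0 : ℕ)) := by positivity
  have h5 := (abs_le.1 (le_refl |ts b k - (0 + 3 ^ (m - 1 - (k0 : ℕ)) * N)|)).1
  nlinarith

theorem ts_neg {m : ℕ} {b : Fin m → ℤ} {N : ℤ} (hN : 0 < N) (hb : ∀ i, |b i| ≤ N) {k0 : Fin m}
    (h0 : ∀ i : Fin m, (i : ℕ) < k0 → b i = 0) (h1 : b k0 = -N) {k : ℕ} (hk : (k0 : ℕ) < k) :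
    ts b k < 0 := by
  have h2 : ts (fun i => -b i) k = -ts b k := by
    rw [ts, ts, ← Finset.sum_neg_distrib]
    refine Finset.sum_congr rfl fun i _ => ?_
    split_ifs
    · ring
    · ring
  have h3 := ts_pos (b := fun i => -b i) hN (fun i => by rw [abs_neg]; exact hb i)
    (k0 := k0) (fun i hi => by simp [h0 i hi]) (by simp [h1]) hk
  rw [h2] at h3
  linarith

/-- trichotomy: either all entries before `k` vanish, or there is a first nonzero one -/
theorem ts_cases {m : ℕ} (b : Fin m → ℤ) (k : ℕ) :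
    (∀ i : Fin m, (i : ℕ) < k → b i = 0) ∨
      ∃ k0 : Fin m, (k0 : ℕ) < k ∧ b k0 ≠ 0 ∧ ∀ i : Fin m, (i : ℕ) < k0 → b i = 0 := by
  classical
  by_cases h : ∀ i : Fin m, (i : ℕ) < k → b i = 0
  · exact Or.inl h
  · right
    push Not at h
    obtain ⟨i, hi, hi'⟩ := h
    have hex : ∃ n : ℕ, ∃ h : n < m, n < k ∧ b ⟨n, h⟩ ≠ 0 := ⟨i, i.2, hi, hi'⟩
    obtain ⟨hn, hk, hb⟩ := Nat.find_spec hex
    refine ⟨⟨Nat.find hex, hn⟩, hk, hb, fun i hi => ?_⟩
    by_contra h1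
    exact Nat.find_min hex hi ⟨i.2, lt_trans hi hk, h1⟩

/-! ### Values on the face -/

section
variable {r : ℕ} {R : Type} [CommRing R] [IsDomain R] [Algebra ℂ R]
variable {𝒜 : ℕ × (Fin r → ℤ) → Submodule ℂ R}
variable {N : ℤ} {lam : Fin r → ℤ} {m : ℕ} {e : Fin m → Fin r → ℤ} {L0 : (Fin r → ℤ) →+ ℤ}
  {β : Fin m → Bool → ((Fin r → ℤ) →+ ℤ)} {E F : Fin m → Bool → VF R}

@[simp] theorem sg_true : sg true = 1 := rfl
@[simp] theorem sg_false : sg false = -1 := rfl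

theorem sg_not (s : Bool) : sg (!s) = -sg s := by
  cases s <;> rfl

theorem sg_mul_self (s : Bool) : sg s * sg s = 1 := by
  cases s <;> rfl

theorem sg_ne_zero (s : Bool) : sg s ≠ 0 := by
  cases s <;> decide

theorem abs_sg (s : Bool) : |sg s| = 1 := by
  cases s <;> rfl

theorem Lk_apply (N : ℤ) {m : ℕ} (L0 : (Fin r → ℤ) →+ ℤ)
    (β : Fin m → Bool → ((Fin r → ℤ) →+ ℤ)) (k : ℕ) (ω : Fin r → ℤ) :
    Lk N L0 β k ω = 3 ^ m * N * L0 ω + ts (fun i => β i true ω) k := by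
  have h1 : ∀ (s : Finset (Fin m)) (f : Fin m → ((Fin r → ℤ) →+ ℤ)),
      (∑ i ∈ s, f i) ω = ∑ i ∈ s, f i ω := fun s f => by
    rw [AddMonoidHom.finsetSum_apply]
  rw [Lk, AddMonoidHom.add_apply, h1, ts]
  congr 1
  refine Finset.sum_congr rfl fun i _ => ?_
  split_ifs
  · rfl
  · rfl

namespace Face

variable (h : Face 𝒜 N lam m e L0 β E F)
include h

theorem L0_vx (j : Fin m) (s : Bool) : L0 (vx lam e j s) = L0 lam := by
  rw [vx, map_add, map_zsmul, h.lze, smul_zero, add_zero]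

theorem wt_vx (j : Fin m) (s : Bool) (hw : ∃ y : FP 𝒜, y.Pi (vx lam e j s)) :
    Wt 𝒜 (vx lam e j s) := hw

theorem b_e (j : Fin m) (s : Bool) (i : Fin m) : β j s (e i) = if i = j then sg s * N else 0 :=
  h.be j s i

theorem b_vx (j : Fin m) (s : Bool) (i : Fin m) (s' : Bool) :
    β j s (vx lam e i s') = N + sg s' * (if i = j then sg s * N else 0) := by
  rw [vx, map_add, map_zsmul, h.bl, h.be, smul_eq_mul]

theorem b_vx_self (j : Fin m) (s : Bool) : β j s (vx lam e j s) = 2 * N := by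
  rw [h.b_vx, if_pos rfl, ← mul_assoc, sg_mul_self]
  ring

theorem b_vx_opp (j : Fin m) (s : Bool) : β j s (vx lam e j (!s)) = 0 := by
  rw [h.b_vx, if_pos rfl, ← mul_assoc, sg_not]
  have := sg_mul_self s
  linear_combination (-N) * this

theorem b_vx_ne {j i : Fin m} (hij : i ≠ j) (s s' : Bool) : β j s (vx lam e i s') = N := by
  rw [h.b_vx, if_neg hij, mul_zero, add_zero]

theorem e_ne_zero (j : Fin m) : e j ≠ 0 := by
  intro h0
  have h1 := h.be j true j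
  rw [h0, map_zero, if_pos rfl] at h1
  have := h.N0
  simp at h1
  omega

/-- the vertices are different -/
theorem vx_inj {i j : Fin m} {s s' : Bool} (he : vx lam e i s = vx lam e j s') :
    i = j ∧ s = s' := by
  have hN := h.N0
  have h1 : sg s • e i = sg s' • e j := by
    rw [vx, vx] at he
    exact add_left_cancel he
  have h2 := congrArg (β i true) h1
  rw [map_zsmul, map_zsmul, h.be, h.be, if_pos rfl, smul_eq_mul, smul_eq_mul] at h2
  by_cases hij : j = i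
  · subst hij
    rw [if_pos rfl] at h2
    refine ⟨rfl, ?_⟩
    cases s <;> cases s' <;> simp at h2 ⊢ <;> omega
  · rw [if_neg hij, mul_zero] at h2
    cases s <;> simp at h2 <;> omega

theorem vx_ne_lam (j : Fin m) (s : Bool) : vx lam e j s ≠ lam := by
  intro he
  have h1 := congrArg (β j s) he
  rw [h.b_vx_self, h.bl] at h1
  have := h.N0
  omega

theorem lam_ne_zero : lam ≠ 0 := by
  intro h0
  have := h.pos
  rw [h0, map_zero] at this
  exact lt_irrefl _ this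

/-- all values of the coroots on weights of `X` are at most `2 N` -/
theorem abs_b_le (j : Fin m) (s : Bool) {ω : Fin r → ℤ} (hω : Wt 𝒜 ω) : |β j s ω| ≤ 2 * N := by
  have hN := h.N0
  by_cases h1 : ω = vx lam e j s
  · rw [h1, h.b_vx_self, abs_of_pos (by omega)]
  · by_cases h2 : ω = -vx lam e j s
    · rw [h2, map_neg, h.b_vx_self, abs_neg, abs_of_pos (by omega)]
    · have := (h.root j s).bd ω hω h1 h2
      omega

/-- the weights with `L0 = 0` have values in `{-N, 0, N}` -/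
theorem abs_b_le' (j : Fin m) (s : Bool) {ω : Fin r → ℤ} (hω : Wt 𝒜 ω) (h0 : L0 ω = 0) :
    |β j s ω| ≤ N := by
  refine (h.root j s).bd ω hω ?_ ?_
  · rintro rfl
    rw [h.L0_vx] at h0
    exact (ne_of_gt h.pos) h0
  · rintro rfl
    rw [map_neg, h.L0_vx] at h0
    have := h.pos
    omega

theorem b_cases (j : Fin m) (s : Bool) {ω : Fin r → ℤ} (hω : Wt 𝒜 ω) (h0 : |β j s ω| ≤ N) :
    β j s ω = 0 ∨ β j s ω = N ∨ β j s ω = -N := by
  have hN := h.N0
  obtain ⟨k, hk⟩ := (h.root j s).int ω hω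
  rw [hk] at h0
  have h1 : |k| ≤ 1 := by
    rw [abs_mul, abs_of_pos hN] at h0
    nlinarith
  have h2 := abs_le.1 h1
  have h3 : k = -1 ∨ k = 0 ∨ k = 1 := by omega
  rcases h3 with rfl | rfl | rfl
  · right; right; rw [hk]; ring
  · left; rw [hk]; ring
  · right; left; rw [hk]; ring

theorem two_mul_ts_lt {ω : Fin r → ℤ} (hω : Wt 𝒜 ω) (k : ℕ) :
    |ts (fun i => β i true ω) k| < 3 ^ m * N := by
  have hN := h.N0
  have h1 := ts_tail (b := fun i => β i true ω) (N := 2 * N) (fun i => h.abs_b_le i true hω) 0 k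
    (Nat.zero_le _) (Nat.zero_le _)
  rw [ts_zero, sub_zero, Nat.sub_zero] at h1
  nlinarith

/-- dominance of `L0` -/
theorem Lk_neg_of_L0 {ω : Fin r → ℤ} (hω : Wt 𝒜 ω) (h0 : L0 ω < 0) (k : ℕ) :
    Lk N L0 β k ω < 0 := by
  have h1 := h.two_mul_ts_lt hω k
  have h2 := (abs_lt.1 h1).2
  have hN := h.N0
  have h3 : (0 : ℤ) < 3 ^ m * N := by positivity
  rw [Lk_apply]
  nlinarith

theorem Lk_pos_of_L0 {ω : Fin r → ℤ} (hω : Wt 𝒜 ω) (h0 : 0 < L0 ω) (k : ℕ) :
    0 < Lk N L0 β k ω := by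
  have h1 := h.two_mul_ts_lt hω k
  have h2 := (abs_lt.1 h1).1
  have hN := h.N0
  have h3 : (0 : ℤ) < 3 ^ m * N := by positivity
  rw [Lk_apply]
  nlinarith

theorem Lk_zero_of {ω : Fin r → ℤ} (h0 : L0 ω = 0) {k : ℕ}
    (h1 : ∀ i : Fin m, (i : ℕ) < k → β i true ω = 0) : Lk N L0 β k ω = 0 := by
  rw [Lk_apply, h0, mul_zero, zero_add]
  exact ts_eq_zero h1

/-- the sign of `Lk` on the weights with `L0 = 0`: the sign of the first nonzero value -/
theorem Lk_pos_of {ω : Fin r → ℤ} (hω : Wt 𝒜 ω) (h0 : L0 ω = 0) {k0 : Fin m}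
    (h1 : ∀ i : Fin m, (i : ℕ) < k0 → β i true ω = 0) (h2 : 0 < β k0 true ω) {k : ℕ}
    (hk : (k0 : ℕ) < k) : 0 < Lk N L0 β k ω := by
  rw [Lk_apply, h0, mul_zero, zero_add]
  refine ts_pos h.N0 (fun i => h.abs_b_le' i true hω h0) h1 ?_ hk
  have hN := h.N0
  rcases h.b_cases k0 true hω (h.abs_b_le' _ _ hω h0) with h3 | h3 | h3
  · omega
  · exact h3
  · omega

theorem Lk_neg_of {ω : Fin r → ℤ} (hω : Wt 𝒜 ω) (h0 : L0 ω = 0) {k0 : Fin m}
    (h1 : ∀ i : Fin m, (i : ℕ) < k0 → β i true ω = 0) (h2 : β k0 true ω < 0) {k : ℕ}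
    (hk : (k0 : ℕ) < k) : Lk N L0 β k ω < 0 := by
  rw [Lk_apply, h0, mul_zero, zero_add]
  refine ts_neg h.N0 (fun i => h.abs_b_le' i true hω h0) h1 ?_ hk
  have hN := h.N0
  rcases h.b_cases k0 true hω (h.abs_b_le' _ _ hω h0) with h3 | h3 | h3
  · omega
  · omega
  · exact h3

theorem Lk_eq_zero_iff {ω : Fin r → ℤ} (hω : Wt 𝒜 ω) (k : ℕ) :
    Lk N L0 β k ω = 0 ↔ L0 ω = 0 ∧ ∀ i : Fin m, (i : ℕ) < k → β i true ω = 0 := by
  constructor
  · intro h1
    have h2 : L0 ω = 0 := by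
      rcases lt_trichotomy (L0 ω) 0 with h3 | h3 | h3
      · exact absurd h1 (h.Lk_neg_of_L0 hω h3 k).ne
      · exact h3
      · exact absurd h1 (h.Lk_pos_of_L0 hω h3 k).ne'
    refine ⟨h2, ?_⟩
    rcases ts_cases (fun i => β i true ω) k with h3 | ⟨k0, hk0, h3, h4⟩
    · exact h3
    · exfalso
      rcases lt_or_gt_of_ne h3 with h5 | h5
      · exact (h.Lk_neg_of hω h2 h4 h5 hk0).ne h1
      · exact (h.Lk_pos_of hω h2 h4 h5 hk0).ne' h1
  · rintro ⟨h1, h2⟩
    exact h.Lk_zero_of h1 h2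

/-- `Lk < 0` persists for larger `k` -/
theorem Lk_neg_mono {ω : Fin r → ℤ} (hω : Wt 𝒜 ω) {k k' : ℕ} (hk : k ≤ k')
    (h1 : Lk N L0 β k ω < 0) : Lk N L0 β k' ω < 0 := by
  rcases lt_trichotomy (L0 ω) 0 with h3 | h3 | h3
  · exact h.Lk_neg_of_L0 hω h3 k'
  · rcases ts_cases (fun i => β i true ω) k with h4 | ⟨k0, hk0, h4, h5⟩
    · exact absurd (h.Lk_zero_of h3 h4) h1.ne
    · rcases lt_or_gt_of_ne h4 with h6 | h6
      · exact h.Lk_neg_of hω h3 h5 h6 (hk0.trans_le hk)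
      · exact absurd (h.Lk_pos_of hω h3 h5 h6 hk0) (by omega)
  · exact absurd (h.Lk_pos_of_L0 hω h3 k) (by omega)

theorem Lk_pos_mono {ω : Fin r → ℤ} (hω : Wt 𝒜 ω) {k k' : ℕ} (hk : k ≤ k')
    (h1 : 0 < Lk N L0 β k ω) : 0 < Lk N L0 β k' ω := by
  rcases lt_trichotomy (L0 ω) 0 with h3 | h3 | h3
  · exact absurd (h.Lk_neg_of_L0 hω h3 k) (by omega)
  · rcases ts_cases (fun i => β i true ω) k with h4 | ⟨k0, hk0, h4, h5⟩
    · exact absurd (h.Lk_zero_of h3 h4) h1.ne'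
    · rcases lt_or_gt_of_ne h4 with h6 | h6
      · exact absurd (h.Lk_neg_of hω h3 h5 h6 hk0) (by omega)
      · exact h.Lk_pos_of hω h3 h5 h6 (hk0.trans_le hk)
  · exact h.Lk_pos_of_L0 hω h3 k'

theorem Lk_nonneg_mono {ω : Fin r → ℤ} (hω : Wt 𝒜 ω) {k k' : ℕ} (hk : k ≤ k')
    (h1 : 0 ≤ Lk N L0 β k' ω) : 0 ≤ Lk N L0 β k ω := by
  by_contra h2
  exact absurd (h.Lk_neg_mono hω hk (not_le.1 h2)) (by omega)

/-! values of `Lk` -/

theorem Lk_e (k : ℕ) (i : Fin m) :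
    Lk N L0 β k (e i) = if (i : ℕ) < k then 3 ^ (m - 1 - i) * N else 0 := by
  rw [Lk_apply, h.lze, mul_zero, zero_add, ts, Finset.sum_eq_single i]
  · rw [h.be, if_pos rfl, sg_true, one_mul]
  · intro j _ hj
    rw [h.be, if_neg (Ne.symm hj), mul_zero, ite_self]
  · intro h1
    exact absurd (Finset.mem_univ _) h1

theorem Lk_vx (k : ℕ) (i : Fin m) (s : Bool) :
    Lk N L0 β k (vx lam e i s) =
      Lk N L0 β k lam + sg s * (if (i : ℕ) < k then 3 ^ (m - 1 - i) * N else 0) := by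
  rw [vx, map_add, map_zsmul, h.Lk_e, smul_eq_mul]

theorem Lk_lam (k : ℕ) : Lk N L0 β k lam =
    3 ^ m * N * L0 lam + ts (fun _ : Fin m => N) k := by
  rw [Lk_apply]
  congr 1
  rw [ts, ts]
  refine Finset.sum_congr rfl fun i _ => ?_
  rw [h.bl]

end Face

end

end Vale.Agent.P280.N
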